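import Vale.Agent.P235.LL.Rows

set_option autoImplicit false

/-!
# P235 (planar graphs, `O(log log n)`): section (9) along the recursion (`RowPair`)
-/

namespace Vale.Agent.P235.LL.H276

open Vale.Agent.P235 Finset

variable {V : Type} {G : SimpleGraph V} {ℓ : Sym2 V → ℝ}

/-! ### components -/

theorem mem_compSet_self {X : Set V} {x : V} (hx : x ∉ X) : x ∈ compSet G X x :=
  ReachOff.refl hx

theorem compSet_notMem {X : Set V} {x y : V} (hy : y ∈ compSet G X x) : y ∉ X :=
  ReachOff.right hy

theorem compSet_eq {X : Set V} {x y : V} (hy : y ∈ compSet G X x) :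
    compSet G X y = compSet G X x := by
  ext z
  exact ⟨fun h => ReachOff.trans hy h, fun h => ReachOff.trans (ReachOff.symm hy) h⟩

theorem notMem_vis {D : Dom V} {k : Fin 3 × Bool} {j : ℕ} {x : V} (hx : x ∉ D.vis k j) :
    x ∈ D.U := by
  by_contra h
  exact hx (fun h' => absurd h' h)

theorem compSet_subset {D : Dom V} {k : Fin 3 × Bool} {j : ℕ} {x y : V}
    (hy : y ∈ compSet G (D.vis k j) x) : y ∈ D.U :=
  notMem_vis (compSet_notMem hy)

/-! ### distance to a set -/

theorem dto_anti (hℓ : ∀ e ∈ G.edgeSet, 0 < ℓ e) {S T : Set V} (hT : T.Nonempty) (h : T ⊆ S)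
    (x : V) : dto G ℓ S x ≤ dto G ℓ T x := by
  have : Nonempty T := hT.to_subtype
  refine le_ciInf fun b => ?_
  exact ciInf_le (f := fun b : S => pathDist G ℓ x b)
    ⟨0, by rintro _ ⟨b, rfl⟩; exact pathDist_nonneg hℓ _ _⟩ ⟨b.1, h b.2⟩

theorem dto_nonneg (hℓ : ∀ e ∈ G.edgeSet, 0 < ℓ e) (S : Set V) (x : V) : 0 ≤ dto G ℓ S x :=
  Real.iInf_nonneg fun b => pathDist_nonneg hℓ _ _

/-! ### the chosen child -/

variable {K : ℝ} (S : Sys G ℓ K)

theorem chS_spec {D : Dom V} (hD : S.Good D) {k : Fin 3 × Bool} {j : ℕ} {x : V}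
    (hx : x ∉ D.vis k (j + 1)) : S.Good (S.ch D k j x) ∧
      (S.ch D k j x).U = compSet G (D.vis k (j + 1)) x ∧ Link G D (S.ch D k j x) k (j + 1) := by
  have h := S.child D hD k j x hx
  unfold Sys.ch Sys.chS
  rw [dif_pos h]
  exact h.choose_spec

theorem mass_nonneg (D : Dom V) (k : Fin 3 × Bool) (j : ℕ) : 0 ≤ D.mass k j := by
  unfold Dom.mass
  split_ifs <;> positivity

theorem mem_comps [Finite V] {D : Dom V} {k : Fin 3 × Bool} {j : ℕ} {W : Set V} :
    W ∈ Sys.comps G D k j ↔ ∃ x, x ∉ D.vis k (j + 1) ∧ W = compSet G (D.vis k (j + 1)) x := by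
  simp [Sys.comps]

theorem chS_good [Finite V] {D : Dom V} (hD : S.Good D) {k : Fin 3 × Bool} {j : ℕ} {W : Set V}
    (hW : W ∈ Sys.comps G D k j) : S.Good (S.chS D k j W) := by
  obtain ⟨x, hx, rfl⟩ := mem_comps.1 hW
  exact (chS_spec S hD hx).1

/-- The semimetric of a domain is an `L₁` semimetric. -/
theorem sig_isL1 [Finite V] {C' C c c1 : ℝ} {st mv : Dom V → Fin 3 × Bool → ℕ → V → V → ℝ}
    (hM : Maps G ℓ C' C c c1 S st mv) (n : ℕ) : ∀ D, S.Good D → IsL1 (S.sig st mv n D) := by
  induction n with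
  | zero => exact fun D _ => IsL1.zero
  | succ n ih =>
    intro D hD
    refine IsL1.sum Finset.univ (fun k a b => 1 / 6 * ∑ j ∈ range (D.Jm k),
      ((15 / 16) ^ j * st D k j a b + D.mass k j * (mv D k j a b +
        ∑ W ∈ Sys.comps G D k j, S.sig st mv n (S.chS D k j W) a b))) fun k _ => ?_
    refine IsL1.smul ?_ (by norm_num)
    refine IsL1.sum (range (D.Jm k)) (fun j a b => (15 / 16) ^ j * st D k j a b + D.mass k j *
      (mv D k j a b + ∑ W ∈ Sys.comps G D k j, S.sig st mv n (S.chS D k j W) a b)) fun j _ => ?_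
    refine IsL1.add (IsL1.smul (hM.st D hD k j).l1 (by positivity))
      (IsL1.smul (IsL1.add (hM.mv D hD k j).l1 ?_) (mass_nonneg D k j))
    exact IsL1.sum _ (fun W a b => S.sig st mv n (S.chS D k j W) a b)
      fun W hW => ih _ (chS_good S hD hW)

/-- Termwise comparison of `SN` and `sig`. -/
theorem sig_ge [Finite V] {C' C c c1 : ℝ} {st mv : Dom V → Fin 3 × Bool → ℕ → V → V → ℝ}
    (hM : Maps G ℓ C' C c c1 S st mv) {n : ℕ} {D : Dom V} (hD : S.Good D) {x y : V}
    (g : Fin 3 × Bool → ℕ → ℝ)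
    (h : ∀ k j, g k j ≤ mv D k j x y + ∑ W ∈ Sys.comps G D k j,
      S.sig st mv n (S.chS D k j W) x y) : Sys.E D g ≤ S.sig st mv (n + 1) D x y := by
  show ∑ k, 1 / 6 * ∑ j ∈ range (D.Jm k), D.mass k j * g k j ≤
    ∑ k, 1 / 6 * ∑ j ∈ range (D.Jm k), ((15 / 16) ^ j * st D k j x y + D.mass k j *
      (mv D k j x y + ∑ W ∈ Sys.comps G D k j, S.sig st mv n (S.chS D k j W) x y))
  refine Finset.sum_le_sum fun k _ => mul_le_mul_of_nonneg_left ?_ (by norm_num)
  refine Finset.sum_le_sum fun j _ => ?_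
  have h1 := mul_le_mul_of_nonneg_left (h k j) (mass_nonneg D k j)
  have h2 : 0 ≤ (15 / 16 : ℝ) ^ j * st D k j x y :=
    mul_nonneg (by positivity) ((hM.st D hD k j).l1.nonneg x y)
  linarith

theorem E_smul (D : Dom V) (c : ℝ) (f : Fin 3 × Bool → ℕ → ℝ) :
    Sys.E D (fun k j => c * f k j) = c * Sys.E D f := by
  unfold Sys.E
  rw [Finset.mul_sum]
  refine Finset.sum_congr rfl fun k _ => ?_
  have h : ∑ j ∈ range (D.Jm k), D.mass k j * (c * f k j) =
      c * ∑ j ∈ range (D.Jm k), D.mass k j * f k j := by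
    rw [Finset.mul_sum]
    exact Finset.sum_congr rfl fun j _ => by ring
  rw [h]
  ring

theorem E_add (D : Dom V) (f g : Fin 3 × Bool → ℕ → ℝ) :
    Sys.E D (fun k j => f k j + g k j) = Sys.E D f + Sys.E D g := by
  unfold Sys.E
  simp only [mul_add, Finset.sum_add_distrib]

open Classical in
theorem SN_succ (n : ℕ) (D : Dom V) (x : V) : S.SN (n + 1) D x = Sys.E D fun k j =>
    S.N D k j x + if x ∈ D.vis k (j + 1) then 0 else S.SN n (S.ch D k j x) x := by
  rfl

/-- The term of the component of `x`. -/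
theorem sum_ge_one [Finite V] {C' C c c1 : ℝ} {st mv : Dom V → Fin 3 × Bool → ℕ → V → V → ℝ}
    (hM : Maps G ℓ C' C c c1 S st mv) {n : ℕ} {D : Dom V} (hD : S.Good D) {k : Fin 3 × Bool}
    {j : ℕ} {x : V} (hx : x ∉ D.vis k (j + 1)) (a b : V) :
    S.sig st mv n (S.ch D k j x) a b ≤
      ∑ W ∈ Sys.comps G D k j, S.sig st mv n (S.chS D k j W) a b :=
  Finset.single_le_sum (f := fun W => S.sig st mv n (S.chS D k j W) a b)
    (fun W hW => (sig_isL1 S hM n _ (chS_good S hD hW)).nonneg a b)
    (mem_comps.2 ⟨x, hx, rfl⟩)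

/-- The terms of two different components. -/
theorem sum_ge_two [Finite V] {C' C c c1 : ℝ} {st mv : Dom V → Fin 3 × Bool → ℕ → V → V → ℝ}
    (hM : Maps G ℓ C' C c c1 S st mv) {n : ℕ} {D : Dom V} (hD : S.Good D) {k : Fin 3 × Bool}
    {j : ℕ} {x y : V} (hx : x ∉ D.vis k (j + 1)) (hy : y ∉ D.vis k (j + 1))
    (hne : compSet G (D.vis k (j + 1)) x ≠ compSet G (D.vis k (j + 1)) y) (a b : V) :
    S.sig st mv n (S.ch D k j x) a b + S.sig st mv n (S.ch D k j y) a b ≤
      ∑ W ∈ Sys.comps G D k j, S.sig st mv n (S.chS D k j W) a b := by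
  classical
  have h1 : ({compSet G (D.vis k (j + 1)) x, compSet G (D.vis k (j + 1)) y} : Finset (Set V)) ⊆
      Sys.comps G D k j := by
    intro W hW
    rw [Finset.mem_insert, Finset.mem_singleton] at hW
    rcases hW with rfl | rfl
    · exact mem_comps.2 ⟨x, hx, rfl⟩
    · exact mem_comps.2 ⟨y, hy, rfl⟩
  refine le_trans (le_of_eq ?_) (Finset.sum_le_sum_of_subset_of_nonneg h1
    fun W hW _ => (sig_isL1 S hM n _ (chS_good S hD hW)).nonneg a b)
  rw [Finset.sum_pair hne]
  rfl

/-- **(9) along the recursion.** -/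
theorem rowPair : RowPair := by
  intro C' C c c1 hC' hC hc hc1 V _ G ℓ K hG hℓ hK S st mv hM n
  have hnn : ∀ n D, S.Good D → ∀ a b, 0 ≤ S.sig st mv n D a b :=
    fun n D hD a b => (sig_isL1 S hM n D hD).nonneg a b
  have hsum0 : ∀ n D, S.Good D → ∀ k j a b,
      0 ≤ ∑ W ∈ Sys.comps G D k j, S.sig st mv n (S.chS D k j W) a b := fun n D hD k j a b =>
    Finset.sum_nonneg fun W hW => hnn n _ (chS_good S hD hW) a b
  induction n with
  | zero =>
    intro D hD
    refine ⟨fun x _ y _ => ?_, fun x _ y _ _ => ?_⟩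
    · show c * 0 ≤ 0
      simp
    · show c * (0 + 0) ≤ 0
      simp
  | succ n ih =>
    intro D hD
    constructor
    · intro x hx y hy
      rw [SN_succ, ← E_smul]
      refine sig_ge S hM hD _ fun k j => ?_
      have h1 := (hM.mv D hD k j).out x hx y hy
      by_cases hv : x ∈ D.vis k (j + 1)
      · rw [if_pos hv, add_zero]
        linarith [hsum0 n D hD k j x y]
      · rw [if_neg hv, mul_add]
        obtain ⟨g, hU, hL⟩ := chS_spec S hD hv
        have h2 := (ih _ g).1 x (hU ▸ mem_compSet_self hv) y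
          (fun h => hy (compSet_subset (hU ▸ h)))
        linarith [sum_ge_one S hM (n := n) hD hv x y]
    · intro x hx y hy hxy
      rw [SN_succ, SN_succ, ← E_add, ← E_smul]
      refine sig_ge S hM hD _ fun k j => ?_
      have h1 := (hM.mv D hD k j).pair x hx y hy hxy
      have hsy : ∀ a b, ∀ D', S.Good D' → S.sig st mv n D' a b = S.sig st mv n D' b a :=
        fun a b D' hD' => (sig_isL1 S hM n D' hD').symm a b
      by_cases hvx : x ∈ D.vis k (j + 1)
      · rw [if_pos hvx]
        by_cases hvy : y ∈ D.vis k (j + 1)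
        · rw [if_pos hvy]
          have := hsum0 n D hD k j x y
          linarith
        · rw [if_neg hvy]
          obtain ⟨g, hU, hL⟩ := chS_spec S hD hvy
          have h2 := (ih _ g).1 y (hU ▸ mem_compSet_self hvy) x
            (fun h => compSet_notMem (G := G) (hU ▸ h) hvx)
          rw [hsy y x _ g] at h2
          have := sum_ge_one S hM (n := n) hD hvy x y
          linarith
      · rw [if_neg hvx]
        obtain ⟨g, hU, hL⟩ := chS_spec S hD hvx
        by_cases hvy : y ∈ D.vis k (j + 1)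
        · rw [if_pos hvy]
          have h2 := (ih _ g).1 x (hU ▸ mem_compSet_self hvx) y
            (fun h => compSet_notMem (G := G) (hU ▸ h) hvy)
          have := sum_ge_one S hM (n := n) hD hvx x y
          linarith
        · rw [if_neg hvy]
          obtain ⟨g', hU', hL'⟩ := chS_spec S hD hvy
          by_cases hne : compSet G (D.vis k (j + 1)) x = compSet G (D.vis k (j + 1)) y
          · have hch : S.ch D k j y = S.ch D k j x := by
              unfold Sys.ch
              rw [hne]
            have hyU : y ∈ (S.ch D k j x).U := by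
              rw [hU, hne]
              exact mem_compSet_self hvy
            have hxU : x ∈ (S.ch D k j x).U := hU ▸ mem_compSet_self hvx
            have hsub : D.Uᶜ ⊆ (S.ch D k j x).Uᶜ := by
              intro z hz hz'
              exact hz (compSet_subset (hU ▸ hz'))
            have hne' : (D.Uᶜ).Nonempty := (S.dom D hD).out
            have h2 := (ih _ g).2 x hxU y hyU (by
              have e1 := dto_anti hℓ hne' hsub x
              have e2 := dto_anti hℓ hne' hsub y
              linarith)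
            have := sum_ge_one S hM (n := n) hD hvx x y
            rw [hch]
            linarith
          · have h2 := (ih _ g).1 x (hU ▸ mem_compSet_self hvx) y (fun h => by
              rw [hU] at h
              exact hne (compSet_eq h).symm)
            have h3 := (ih _ g').1 y (hU' ▸ mem_compSet_self hvy) x (fun h => by
              rw [hU'] at h
              exact hne (compSet_eq h))
            rw [hsy y x _ g'] at h3
            have := sum_ge_two S hM (n := n) hD hvx hvy hne x y
            linarith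

end Vale.Agent.P235.LL.H276
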