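import Vale.Agent.P235.Bdl.B1

set_option autoImplicit false

/-!
# P235 (planar graphs, `O(log log n)`): section (9), the metric core

`d` a metric, `rho` = distance to the complement of the domain; a point `x` of the domain is
replaced by the foot `b` of the dart which is nearest to it in the new coordinates (`b = x` when `x`
has become visible); `tau` = distance of `x` to that dart in the new coordinates.
-/

namespace Vale.Agent.P235.LL.H276

open Finset

variable {V : Type}

/-- The real inequality at the end of (9): `P`, `Q` are the two semimetrics at `(x, y)`. -/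
theorem pair_real {c C P Q T R : ℝ} (hc : 0 < c) (hC : 0 ≤ C) (hP0 : 0 ≤ P)
    (hP : c * R - C * T ≤ P) (hQ : c * T ≤ Q) : c ^ 2 / (C + c) * (R + T) ≤ P + Q := by
  have h : 0 < C + c := by linarith
  rw [div_mul_eq_mul_div, div_le_iff₀ h]
  have h1 : c * (c * R - C * T) ≤ c * P := mul_le_mul_of_nonneg_left hP hc.le
  have h2 : (C + c) * (c * T) ≤ (C + c) * Q := mul_le_mul_of_nonneg_left hQ h.le
  have h3 : 0 ≤ C * P := mul_nonneg hC hP0
  nlinarith

/-- The foot `b` and the distance `t` replace the point `x`; `N` is the functional `N(x)`. -/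
structure Wit (d : V → V → ℝ) (rho : V → ℝ) (FP : V → V → ℝ) (C N t : ℝ) (x b : V) : Prop where
  dist : d x b ≤ 29 * rho x
  rho_le : rho b ≤ 30 * rho x
  N_le : N ≤ rho b + t
  t0 : 0 ≤ t
  t_le : t ≤ 7 * rho x
  F_le : FP x b ≤ C * t

/-- A point of the domain which becomes visible is its own foot. -/
theorem Wit.self {d : V → V → ℝ} {rho : V → ℝ} {FP : V → V → ℝ} {C : ℝ} {x : V}
    (hd : d x x = 0) (hF : IsL1 FP) (hr : 0 ≤ rho x) : Wit d rho FP C (rho x) 0 x x :=
  ⟨by rw [hd]; linarith, by linarith, by linarith, le_rfl, by linarith, by rw [hF.self]; simp⟩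

/-- A point outside the domain is its own foot, with `N = 0`. -/
theorem Wit.out {d : V → V → ℝ} {rho : V → ℝ} {FP : V → V → ℝ} {C : ℝ} {x : V}
    (hd : d x x = 0) (hF : IsL1 FP) (hr : rho x = 0) : Wit d rho FP C 0 0 x x :=
  ⟨by rw [hd, hr]; simp, by rw [hr]; simp, by rw [hr]; simp, le_rfl, by rw [hr]; simp,
    by rw [hF.self]; simp⟩

/-- A point `x` which stays invisible: `e0` the dart at the end of a shortest path to the visible
set (`p' = d x (foot e0)`), `e` the dart which is nearest to `x` in the new coordinates. -/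
theorem Wit.invis {κ δ : Type} [Fintype κ] {d : V → V → ℝ} {rho : V → ℝ} {FP : V → V → ℝ}
    {C N : ℝ} {x : V}
    (foot : δ → V) (Zx : κ → ℝ) (Zd : δ → κ → ℝ) (Dt : Set δ)
    (htri : ∀ a b c, d a c ≤ d a b + d b c)
    (hrho : ∀ a b, rho b ≤ rho a + d a b)
    (hctrl : ∀ e ∈ Dt, ∀ e' ∈ Dt, d (foot e) (foot e') ≤ 2 * ∑ k, |Zd e k - Zd e' k|)
    {e0 e : δ} (he0 : e0 ∈ Dt) (he : e ∈ Dt) {p' : ℝ} (hp : p' ≤ rho x)
    (hd0 : d x (foot e0) ≤ p') (hZ0 : ∑ k, |Zx k - Zd e0 k| ≤ 7 * p')
    (hmin : ∑ k, |Zx k - Zd e k| ≤ ∑ k, |Zx k - Zd e0 k|)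
    (hN : N ≤ rho (foot e) + ∑ k, |Zx k - Zd e k|)
    (hF : FP x (foot e) ≤ C * ∑ k, |Zx k - Zd e k|) :
    Wit d rho FP C N (∑ k, |Zx k - Zd e k|) x (foot e) := by
  have h1 := hctrl e0 he0 e he
  have h2 : ∑ k, |Zd e0 k - Zd e k| ≤ ∑ k, |Zx k - Zd e0 k| + ∑ k, |Zx k - Zd e k| := by
    rw [← Finset.sum_add_distrib]
    apply Finset.sum_le_sum
    intro k _
    have := abs_sub_le (Zd e0 k) (Zx k) (Zd e k)
    rw [abs_sub_comm (Zd e0 k) (Zx k)] at this
    exact this
  have h3 := htri x (foot e0) (foot e)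
  have h4 := hrho x (foot e)
  have hdist : d x (foot e) ≤ 29 * p' := by linarith
  refine ⟨by linarith, by linarith, hN, Finset.sum_nonneg (fun k _ => abs_nonneg _),
    by linarith, hF⟩

/-- Two points of the domain `U` (or any two points with nearby darts) are far in the coordinates
when they are far in the metric: `f a` = dart at the end of a shortest path from `a` to the
complement of `U`. -/
theorem far {κ δ : Type} [Fintype κ] {d : V → V → ℝ} (m : ℝ)
    (foot : δ → V) (X : V → κ → ℝ) (Xd : δ → κ → ℝ)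
    (hsym : ∀ a b, d a b = d b a) (htri : ∀ a b c, d a c ≤ d a b + d b c)
    {a b : V} {e e' : δ} {r r' : ℝ}
    (hctrl : d (foot e) (foot e') ≤ 2 * ∑ k, |Xd e k - Xd e' k|)
    (ha : d a (foot e) ≤ r) (hb : d b (foot e') ≤ r')
    (hXa : ∑ k, |X a k - Xd e k| ≤ m * r) (hXb : ∑ k, |X b k - Xd e' k| ≤ m * r') :
    (d a b - (r + r')) / 2 - m * (r + r') ≤ ∑ k, |X a k - X b k| := by
  have h1 : ∑ k, |Xd e k - Xd e' k| ≤
      ∑ k, |X a k - Xd e k| + ∑ k, |X a k - X b k| + ∑ k, |X b k - Xd e' k| := by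
    rw [← Finset.sum_add_distrib, ← Finset.sum_add_distrib]
    apply Finset.sum_le_sum
    intro k _
    have t1 := abs_sub_le (Xd e k) (X a k) (Xd e' k)
    have t2 := abs_sub_le (X a k) (X b k) (Xd e' k)
    rw [abs_sub_comm (Xd e k) (X a k)] at t1
    linarith
  have h2 := htri a (foot e) b
  have h3 := htri (foot e) (foot e') b
  rw [hsym (foot e') b] at h3
  linarith

/-- **(9), one macro move.** `FP`, `FT` the semimetrics `Phi`, `Theta'`. `far_b`: the feet are far
in the old coordinates; `hT`: the semimetric `Theta'`. -/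
theorem pair_move {d : V → V → ℝ} {rho : V → ℝ} {FP FT : V → V → ℝ} {c C Nx Ny t t' DX : ℝ}
    {x y bx bY : V} (hc : 0 < c) (hC : 0 ≤ C) (hFP : IsL1 FP)
    (wx : Wit d rho FP C Nx t x bx) (wy : Wit d rho FP C Ny t' y bY)
    (hlow : c * min (DX + |rho bx - rho bY|) (rho bx + rho bY) ≤ FP bx bY)
    (hrho : ∀ v, 0 ≤ rho v) (hDX : 0 ≤ DX)
    (hfar : rho bx = 0 ∨ rho bY = 0 ∨ rho bx + rho bY ≤ DX)
    (hT : c * (t + t') ≤ FT x y) :
    c ^ 2 / (C + c) * (Nx + Ny) ≤ FP x y + FT x y := by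
  have h1 : c * (rho bx + rho bY) ≤ FP bx bY := by
    refine le_trans (mul_le_mul_of_nonneg_left ?_ hc.le) hlow
    rw [le_min_iff]
    refine ⟨?_, le_rfl⟩
    rcases hfar with h | h | h
    · rw [h, zero_sub, abs_neg, abs_of_nonneg (hrho _)]
      linarith
    · rw [h, sub_zero, abs_of_nonneg (hrho _)]
      linarith
    · have := abs_nonneg (rho bx - rho bY)
      linarith
  have h2 : FP bx bY ≤ FP x y + C * (t + t') := by
    have e1 := hFP.tri bx x bY
    have e2 := hFP.tri x y bY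
    have e3 := wx.F_le
    have e4 := wy.F_le
    rw [hFP.symm bx x] at e1
    linarith
  have h3 := pair_real (P := FP x y) (Q := FT x y) (T := t + t') (R := rho bx + rho bY) hc hC
    (hFP.nonneg _ _) (by linarith) hT
  have h4 : Nx + Ny ≤ rho bx + rho bY + (t + t') := by
    have := wx.N_le
    have := wy.N_le
    linarith
  have h5 : 0 ≤ c ^ 2 / (C + c) := by positivity
  exact (mul_le_mul_of_nonneg_left h4 h5).trans h3

/-- The numbers: the feet of two points with `rho x + rho y ≤ c₁ d x y` are far in the old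
coordinates. -/
theorem far_num {d : V → V → ℝ} {rho : V → ℝ} {FP : V → V → ℝ} {C Nx Ny t t' DX : ℝ}
    {x y bx bY : V}
    (hsym : ∀ a b, d a b = d b a) (htri : ∀ a b c, d a c ≤ d a b + d b c)
    (wx : Wit d rho FP C Nx t x bx) (wy : Wit d rho FP C Ny t' y bY)
    (h0 : 0 ≤ rho x + rho y) (ha : 500 * (rho x + rho y) ≤ d x y)
    (hDX : (d bx bY - (rho bx + rho bY)) / 2 - 6 * (rho bx + rho bY) ≤ DX) :
    rho bx + rho bY ≤ DX := by
  have h1 := htri x bx y
  have h2 := htri bx bY y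
  rw [hsym bY y] at h2
  have := wx.dist
  have := wy.dist
  have := wx.rho_le
  have := wy.rho_le
  linarith

/-- The numbers: `Theta'` separates two points of the same new component. -/
theorem theta_num {c t t' DZ px py D F : ℝ} (hc : 0 ≤ c)
    (hDZ : (D - (px + py)) / 2 - 7 * (px + py) ≤ DZ) (ha : 500 * (px + py) ≤ D)
    (hp : 0 ≤ px + py)
    (ht : t ≤ 7 * px) (ht' : t' ≤ 7 * py) (hF : c * min DZ (t + t') ≤ F) :
    c * (t + t') ≤ F := by
  refine le_trans (mul_le_mul_of_nonneg_left ?_ hc) hF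
  rw [le_min_iff]
  exact ⟨by linarith, le_rfl⟩

end Vale.Agent.P235.LL.H276
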