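import Vale.Agent.P235.H276.PairCore
import Vale.Agent.P235.H296.Ext

set_option autoImplicit false

/-!
# P235 (planar graphs, `O(log log n)`): section (9), gain of one macro move

In the letters of `H296.ext`, `H296.theta`: `ch x = none` for the vertices which are visible after
the move (or outside the domain `U`), `ch x = some k` for the vertices of the new component `k`,
`D k` its darts.
-/

namespace Vale.Agent.P235.LL.H276

open Finset H296

/-- The metric facts of one macro move of the domain `U`. -/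
structure MvFacts {V κ : Type} {m n : ℕ} (d : V → V → ℝ) (U : Set V) (rho : V → ℝ)
    (Do : Set (V × V)) (X : V → Fin m → ℝ) (Xo : V × V → Fin m → ℝ)
    (ch : V → Option κ) (D : κ → Set (V × V)) (Z : V → Fin n → ℝ) (Zd : V × V → Fin n → ℝ)
    (N t : V → ℝ) : Prop where
  d_self : ∀ x, d x x = 0
  d_symm : ∀ x y, d x y = d y x
  d_tri : ∀ x y z, d x z ≤ d x y + d y z
  rho_nonneg : ∀ x, 0 ≤ rho x
  rho_out : ∀ x, x ∉ U → rho x = 0
  rho_lip : ∀ x y, rho y ≤ rho x + d x y
  /-- the old coordinates: control, and the dart at the end of a shortest path -/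
  ctrl : ∀ e ∈ Do, ∀ e' ∈ Do, d e.2 e'.2 ≤ 2 * sd (Xo e) (Xo e')
  near : ∀ x ∈ U, ∃ e ∈ Do, d x e.2 ≤ rho x ∧ sd (X x) (Xo e) ≤ 6 * rho x
  /-- the new coordinates -/
  ch_mem : ∀ x k, ch x = some k → x ∈ U
  ctrl' : ∀ k, ∀ e ∈ D k, ∀ e' ∈ D k, d e.2 e'.2 ≤ 2 * sd (Zd e) (Zd e')
  near' : ∀ x k, ch x = some k → ∃ e ∈ D k, ∃ p' ≤ rho x, d x e.2 ≤ p' ∧
    sd (Z x) (Zd e) ≤ 7 * p'
  dart' : ∀ k, ∀ e ∈ D k, ch e.2 = none
  t_none : ∀ x, ch x = none → t x = 0
  t_le : ∀ x k, ch x = some k → ∀ e ∈ D k, t x ≤ sd (Z x) (Zd e)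
  t_att : ∀ x k, ch x = some k → ∃ e ∈ D k, t x = sd (Z x) (Zd e)
  N_out : ∀ x, x ∉ U → N x ≤ 0
  N_vis : ∀ x, ch x = none → N x ≤ rho x
  N_inv : ∀ x k, ch x = some k → ∀ e ∈ D k, N x ≤ rho e.2 + sd (Z x) (Zd e)

variable {V κ : Type} {m n : ℕ} {d : V → V → ℝ} {U : Set V} {rho : V → ℝ}
    {Do : Set (V × V)} {X : V → Fin m → ℝ} {Xo : V × V → Fin m → ℝ}
    {ch : V → Option κ} {D : κ → Set (V × V)} {Z : V → Fin n → ℝ} {Zd : V × V → Fin n → ℝ}
    {N t : V → ℝ}

/-- The witness of every vertex. -/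
theorem MvFacts.wit (h : MvFacts d U rho Do X Xo ch D Z Zd N t) {F : V → V → ℝ} {C : ℝ}
    (hF : IsL1 F)
    (hF2 : ∀ k x, ch x = some k → ∀ e ∈ D k, F x e.2 ≤ C * sd (Z x) (Zd e)) (x : V) :
    ∃ b, ch b = none ∧ Wit d rho F C (N x) (t x) x b := by
  cases hx : ch x with
  | none =>
    refine ⟨x, hx, ?_⟩
    rw [h.t_none x hx]
    have h1 := h.rho_nonneg x
    exact ⟨by rw [h.d_self]; linarith, by linarith, by have := h.N_vis x hx; linarith, le_rfl,
      by linarith, by rw [hF.self]; simp⟩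
  | some k =>
    obtain ⟨e, he, hte⟩ := h.t_att x k hx
    obtain ⟨e0, he0, p', hp', hd0, hZ0⟩ := h.near' x k hx
    refine ⟨e.2, h.dart' k e he, ?_⟩
    have h1 : sd (Z x) (Zd e) ≤ sd (Z x) (Zd e0) := by
      rw [← hte]
      exact h.t_le x k hx e0 he0
    rw [hte]
    exact Wit.invis (foot := Prod.snd) (Zx := Z x) (Zd := Zd) (Dt := D k) h.d_tri h.rho_lip
      (h.ctrl' k) he0 he hp' hd0 hZ0 h1 (h.N_inv x k hx e he) (hF2 k x hx e he)

/-- **(9), one macro move**: `F` = the semimetric `Phi` (extended), `T` = the semimetric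
`Theta'`. -/
theorem MvFacts.gain (h : MvFacts d U rho Do X Xo ch D Z Zd N t) {Q F T : V → V → ℝ} {c C : ℝ}
    (hF : IsL1 F) (hT : IsL1 T) (hc : 0 < c) (hC : 0 ≤ C)
    (hQ : ∀ x y, c * min (sd (X x) (X y) + |rho x - rho y|) (rho x + rho y) ≤ Q x y)
    (hF1 : ∀ x y, ch x = none → ch y = none → F x y = Q x y)
    (hF2 : ∀ k x, ch x = some k → ∀ e ∈ D k, F x e.2 ≤ C * sd (Z x) (Zd e))
    (hT1 : ∀ k x y, ch x = some k → ch y = some k → c * min (sd (Z x) (Z y)) (t x + t y) ≤ T x y)
    (hT2 : ∀ x y, ch x ≠ ch y → c * (t x + t y) ≤ T x y) {x y : V}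
    (hxy : y ∉ U ∨ 500 * (rho x + rho y) ≤ d x y) :
    c ^ 2 / (C + c) * (N x + N y) ≤ F x y + T x y := by
  obtain ⟨b, hb, wx⟩ := h.wit hF hF2 x
  obtain ⟨b', hb', wy⟩ := h.wit hF hF2 y
  refine pair_move (DX := sd (X b) (X b')) hc hC hF wx wy ?_ h.rho_nonneg (sd_nonneg _ _) ?_ ?_
  · rw [hF1 b b' hb hb']
    exact hQ b b'
  · by_cases hbU : b ∈ U
    · by_cases hbU' : b' ∈ U
      · rcases hxy with hy | hxy
        · -- `y` outside: its foot has `rho = 0`
          right; left
          have h1 := wy.rho_le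
          rw [h.rho_out y hy] at h1
          have h2 := h.rho_nonneg b'
          linarith
        · right; right
          obtain ⟨e, he, h1, h2⟩ := h.near b hbU
          obtain ⟨e', he', h1', h2'⟩ := h.near b' hbU'
          have h3 := far (κ := Fin m) 6 (foot := Prod.snd) X Xo h.d_symm h.d_tri
            (h.ctrl e he e' he') h1 h1' h2 h2'
          exact far_num h.d_symm h.d_tri wx wy (by
            have := h.rho_nonneg x
            have := h.rho_nonneg y
            linarith) hxy h3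
      · right; left
        exact h.rho_out b' hbU'
    · left
      exact h.rho_out b hbU
  · by_cases hk : ch x = ch y
    · cases hcx : ch x with
      | none =>
        rw [h.t_none x hcx, h.t_none y (hk ▸ hcx)]
        simpa using hT.nonneg x y
      | some k =>
        have hcy : ch y = some k := hk ▸ hcx
        rcases hxy with hy | hxy
        · exact absurd (h.ch_mem y k hcy) hy
        · obtain ⟨e, he, p, hp, h1, h2⟩ := h.near' x k hcx
          obtain ⟨e', he', p', hp', h1', h2'⟩ := h.near' y k hcy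
          have h3 := far (κ := Fin n) 7 (foot := Prod.snd) Z Zd h.d_symm h.d_tri
            (h.ctrl' k e he e' he') h1 h1' h2 h2'
          have hp0 : 0 ≤ p := by
            have := sd_nonneg (Z x) (Zd e)
            linarith
          have hp0' : 0 ≤ p' := by
            have := sd_nonneg (Z y) (Zd e')
            linarith
          exact theta_num hc.le h3 (by linarith) (by linarith)
            ((h.t_le x k hcx e he).trans h2) ((h.t_le y k hcy e' he').trans h2')
            (hT1 k x y hcx hcy)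
    · exact hT2 x y hk

end Vale.Agent.P235.LL.H276
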